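import Mathlib

/-!
P086: the statement that two group von Neumann algebras of free groups of different rank are
isomorphic. The general notions are written over an abstract Hilbert space, so that the printed
statement stays short; they are applied to the space of square summable functions on the group.
-/

open scoped lp ENNReal

namespace VP086.Lit

section General

variable (H : Type) [NormedAddCommGroup H] [InnerProductSpace ℂ H] [CompleteSpace H]

/-- The bicommutant of a set of operators. -/
noncomputable def bicommutant (S : Set (H →L[ℂ] H)) : StarSubalgebra ℂ (H →L[ℂ] H) :=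
  StarSubalgebra.centralizer ℂ (StarSubalgebra.centralizer ℂ S : Set (H →L[ℂ] H))

/-- The bounded operators moving the vectors `δ h` as left multiplication by a group element. -/
def translations {G : Type} [Group G] (δ : G → H) : Set (H →L[ℂ] H) :=
  {T | ∃ g : G, ∀ h : G, T (δ h) = δ (g * h)}

variable (K : Type) [NormedAddCommGroup K] [InnerProductSpace ℂ K] [CompleteSpace K]

/-- The bicommutants of two sets of operators are isomorphic as star algebras. -/
def Isomorphic (S : Set (H →L[ℂ] H)) (T : Set (K →L[ℂ] K)) : Prop :=
  Nonempty (bicommutant H S ≃⋆ₐ[ℂ] bicommutant K T)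

end General

/-- The point masses of `ℓ²(G)`. -/
noncomputable def delta (G : Type) : G → lp (fun _ : G => ℂ) 2 := by
  classical exact fun g => lp.single 2 g 1

/-- `L(F m)` and `L(F n)` are isomorphic as star algebras. -/
def FreeFactorsIso (m n : ℕ) : Prop :=
  Isomorphic (lp (fun _ : FreeGroup (Fin m) => ℂ) 2) (lp (fun _ : FreeGroup (Fin n) => ℂ) 2)
    (translations _ (delta (FreeGroup (Fin m)))) (translations _ (delta (FreeGroup (Fin n))))

/-- The answer to the rank question. -/
def Target : Prop := ∃ m n : ℕ, 2 ≤ m ∧ 2 ≤ n ∧ m ≠ n ∧ FreeFactorsIso m n

end VP086.Lit
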