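import Vale.Agent.P086.GroupVN
import Vale.Agent.P086.Lit.Statement

/-!
P086: the statement in printable form is the working one.
-/

namespace VP086

theorem translations_delta (G : Type) [Group G] :
    Lit.translations (GroupL2 G) (Lit.delta G) = leftTranslations G := rfl

theorem lit_of_target (h : Target) : Lit.Target := h

theorem target_of_lit (h : Lit.Target) : Target := h

theorem lit_pair {m n : ℕ}
    (h : Nonempty (groupVN (FreeGroup (Fin m)) ≃⋆ₐ[ℂ] groupVN (FreeGroup (Fin n)))) :
    Lit.FreeFactorsIso m n := h

end VP086
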